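import Mathlib

namespace Vale.Agent.Lib.P064

open Finset

/-- `(b + j)! ≤ 2 ^ (b + j) * b! * j!`. -/
lemma key3_factorial_add_le (b j : ℕ) :
    (b + j).factorial ≤ 2 ^ (b + j) * b.factorial * j.factorial := by
  have h := Nat.add_choose_mul_factorial_mul_factorial b j
  have h2 := Nat.choose_le_two_pow (b + j) j
  calc (b + j).factorial = (b + j).choose j * b.factorial * j.factorial := h.symm
    _ ≤ 2 ^ (b + j) * b.factorial * j.factorial := by gcongr

/-- Splitting a weighted sum over all subsets along a predicate. -/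
lemma key3_split {ι : Type*} [DecidableEq ι] (s : Finset ι) (P : ι → Prop) [DecidablePred P]
    (a : ℝ) (ha : 0 ≤ a) (w : ι → ℝ) (hw0 : ∀ i ∈ s, 0 ≤ w i) :
    ∑ T ∈ s.powerset, (T.card.factorial : ℝ) * a ^ T.card * ∏ i ∈ T, w i
      ≤ (∑ B ∈ (s.filter P).powerset,
            (B.card.factorial : ℝ) * (2 * a) ^ B.card * ∏ i ∈ B, w i) *
        (∑ J ∈ (s.filter (fun i => ¬ P i)).powerset,
            (J.card.factorial : ℝ) * (2 * a) ^ J.card * ∏ i ∈ J, w i) := by
  classical
  set g : Finset ι → ℝ := fun B => (B.card.factorial : ℝ) * (2 * a) ^ B.card * ∏ i ∈ B, w i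
    with hg
  have hterm : ∀ T ∈ s.powerset,
      (T.card.factorial : ℝ) * a ^ T.card * ∏ i ∈ T, w i
        ≤ g (T.filter P) * g (T.filter (fun i => ¬ P i)) := by
    intro T hT
    rw [mem_powerset] at hT
    have hcard : (T.filter P).card + (T.filter (fun i => ¬ P i)).card = T.card :=
      card_filter_add_card_filter_not P
    have hprod : (∏ i ∈ T.filter P, w i) * ∏ i ∈ T.filter (fun i => ¬ P i), w i = ∏ i ∈ T, w i :=
      prod_filter_mul_prod_filter_not T P w
    have h1 : 0 ≤ ∏ i ∈ T.filter P, w i :=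
      prod_nonneg fun i hi => hw0 i (hT (mem_of_mem_filter i hi))
    have h2 : 0 ≤ ∏ i ∈ T.filter (fun i => ¬ P i), w i :=
      prod_nonneg fun i hi => hw0 i (hT (mem_of_mem_filter i hi))
    set b := (T.filter P).card
    set j := (T.filter (fun i => ¬ P i)).card
    have hfac : ((b + j).factorial : ℝ) ≤ 2 ^ (b + j) * b.factorial * j.factorial := by
      exact_mod_cast key3_factorial_add_le b j
    rw [← hcard, ← hprod]
    have hpow : (0 : ℝ) ≤ a ^ (b + j) := pow_nonneg ha _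
    calc ((b + j).factorial : ℝ) * a ^ (b + j) *
            ((∏ i ∈ T.filter P, w i) * ∏ i ∈ T.filter (fun i => ¬ P i), w i)
        ≤ (2 ^ (b + j) * b.factorial * j.factorial) * a ^ (b + j) *
            ((∏ i ∈ T.filter P, w i) * ∏ i ∈ T.filter (fun i => ¬ P i), w i) := by
          gcongr
      _ = g (T.filter P) * g (T.filter (fun i => ¬ P i)) := by
          simp only [hg]
          rw [mul_pow, mul_pow, pow_add, pow_add]
          ring
  calc ∑ T ∈ s.powerset, (T.card.factorial : ℝ) * a ^ T.card * ∏ i ∈ T, w i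
      ≤ ∑ T ∈ s.powerset, g (T.filter P) * g (T.filter (fun i => ¬ P i)) := sum_le_sum hterm
    _ = ∑ x ∈ (s.filter P).powerset ×ˢ (s.filter (fun i => ¬ P i)).powerset, g x.1 * g x.2 := by
        refine sum_nbij' (fun T => (T.filter P, T.filter (fun i => ¬ P i)))
          (fun x => x.1 ∪ x.2) ?_ ?_ ?_ ?_ ?_
        · intro T hT
          rw [mem_powerset] at hT
          simp only [mem_product, mem_powerset]
          exact ⟨filter_subset_filter _ hT, filter_subset_filter _ hT⟩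
        · intro x hx
          simp only [mem_product, mem_powerset] at hx
          rw [mem_powerset]
          exact union_subset (hx.1.trans (filter_subset _ _)) (hx.2.trans (filter_subset _ _))
        · intro T _
          exact filter_union_filter_not_eq P T
        · intro x hx
          simp only [mem_product, mem_powerset] at hx
          obtain ⟨hB, hJ⟩ := hx
          have e1 : (x.1 ∪ x.2).filter P = x.1 := by
            ext i
            simp only [mem_filter, mem_union]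
            constructor
            · rintro ⟨h | h, hp⟩
              · exact h
              · exact absurd hp (mem_filter.mp (hJ h)).2
            · intro h
              exact ⟨Or.inl h, (mem_filter.mp (hB h)).2⟩
          have e2 : (x.1 ∪ x.2).filter (fun i => ¬ P i) = x.2 := by
            ext i
            simp only [mem_filter, mem_union]
            constructor
            · rintro ⟨h | h, hp⟩
              · exact absurd (mem_filter.mp (hB h)).2 hp
              · exact h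
            · intro h
              exact ⟨Or.inr h, (mem_filter.mp (hJ h)).2⟩
          exact Prod.ext e1 e2
        · intro T _
          rfl
    _ = (∑ B ∈ (s.filter P).powerset, g B) * ∑ J ∈ (s.filter (fun i => ¬ P i)).powerset, g J := by
        exact (sum_product' _ _ (fun B J => g B * g J)).trans (sum_mul_sum _ _ _ _).symm

/-- Small case: if `2 * n * t ≤ 1` then `∑_{j ≤ n} C(n,j) j! t^j ≤ 2`. -/
lemma key3_phi_small (n : ℕ) (t : ℝ) (ht : 0 ≤ t) (h : 2 * (n : ℝ) * t ≤ 1) :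
    ∑ j ∈ range (n + 1), (n.choose j : ℝ) * ((j.factorial : ℝ) * t ^ j) ≤ 2 := by
  have hnt : (n : ℝ) * t ≤ 1 / 2 := by linarith
  have hnt0 : 0 ≤ (n : ℝ) * t := by positivity
  calc ∑ j ∈ range (n + 1), (n.choose j : ℝ) * ((j.factorial : ℝ) * t ^ j)
      ≤ ∑ j ∈ range (n + 1), (1 / 2 : ℝ) ^ j := by
        apply sum_le_sum
        intro j _
        have h1 : (n.choose j : ℝ) * (j.factorial : ℝ) ≤ (n : ℝ) ^ j := by
          have h0 := Nat.descFactorial_le_pow n j
          rw [Nat.descFactorial_eq_factorial_mul_choose] at h0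
          calc (n.choose j : ℝ) * (j.factorial : ℝ)
              = ((j.factorial * n.choose j : ℕ) : ℝ) := by push_cast; ring
            _ ≤ ((n ^ j : ℕ) : ℝ) := by exact_mod_cast h0
            _ = (n : ℝ) ^ j := by push_cast; ring
        have htj : 0 ≤ t ^ j := pow_nonneg ht j
        calc (n.choose j : ℝ) * ((j.factorial : ℝ) * t ^ j)
            = ((n.choose j : ℝ) * (j.factorial : ℝ)) * t ^ j := by ring
          _ ≤ (n : ℝ) ^ j * t ^ j := mul_le_mul_of_nonneg_right h1 htj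
          _ = ((n : ℝ) * t) ^ j := by rw [mul_pow]
          _ ≤ (1 / 2) ^ j := pow_le_pow_left₀ hnt0 hnt j
    _ ≤ 2 := sum_geometric_two_le _

/-- Large case: `∑_{j ≤ n} C(n,j) j! t^j ≤ n! t^n exp(1/t)`. -/
lemma key3_phi_large (n : ℕ) (t : ℝ) (ht : 0 < t) :
    ∑ j ∈ range (n + 1), (n.choose j : ℝ) * ((j.factorial : ℝ) * t ^ j)
      ≤ (n.factorial : ℝ) * t ^ n * Real.exp (1 / t) := by
  have hkey : ∀ j ∈ range (n + 1), (n.choose j : ℝ) * ((j.factorial : ℝ) * t ^ j)
      = (n.factorial : ℝ) * t ^ n * ((1 / t) ^ (n - j) / ((n - j).factorial : ℝ)) := by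
    intro j hj
    have hj' : j ≤ n := Nat.lt_succ_iff.mp (mem_range.mp hj)
    have hc : (n.choose j : ℝ) * (j.factorial : ℝ) * ((n - j).factorial : ℝ) = (n.factorial : ℝ) := by
      exact_mod_cast Nat.choose_mul_factorial_mul_factorial hj'
    have hf : ((n - j).factorial : ℝ) ≠ 0 := by positivity
    have ht' : t ≠ 0 := ht.ne'
    have hpow : t ^ n = t ^ j * t ^ (n - j) := by rw [← pow_add, Nat.add_sub_cancel' hj']
    have hinv : t ^ (n - j) * (1 / t) ^ (n - j) = 1 := by
      rw [← mul_pow, mul_one_div_cancel ht', one_pow]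
    rw [← hc, hpow]
    calc (n.choose j : ℝ) * ((j.factorial : ℝ) * t ^ j)
        = (n.choose j : ℝ) * (j.factorial : ℝ) * t ^ j *
            ((t ^ (n - j) * (1 / t) ^ (n - j)) * (((n - j).factorial : ℝ) / ((n - j).factorial : ℝ))) := by
          rw [hinv, div_self hf]; ring
      _ = (n.choose j : ℝ) * (j.factorial : ℝ) * ((n - j).factorial : ℝ) * (t ^ j * t ^ (n - j)) *
            ((1 / t) ^ (n - j) / ((n - j).factorial : ℝ)) := by ring
  rw [sum_congr rfl hkey, ← mul_sum]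
  have hrefl : ∑ j ∈ range (n + 1), (1 / t) ^ (n - j) / ((n - j).factorial : ℝ)
      = ∑ i ∈ range (n + 1), (1 / t) ^ i / (i.factorial : ℝ) := by
    have := sum_range_reflect (fun i => (1 / t) ^ i / (i.factorial : ℝ)) (n + 1)
    simpa using this
  rw [hrefl]
  have hle := Real.sum_le_exp_of_nonneg (x := 1 / t) (by positivity) (n + 1)
  have hnn : 0 ≤ (n.factorial : ℝ) * t ^ n := by positivity
  exact mul_le_mul_of_nonneg_left hle hnn

/-- Core termwise estimate for the heavy part. -/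
lemma key3_heavy_term (h b : ℕ) (hb1 : 1 ≤ b) (hbh : b ≤ h) (β A0 c : ℝ) (hβ : 0 < β)
    (hA : 1 ≤ A0) (hβA : 1 ≤ β * A0) (hc0 : 0 ≤ c) (hc1 : c ≤ 1) :
    (h.choose b : ℝ) * ((b.factorial : ℝ) * (c * β) ^ b) / A0 ^ h
      ≤ c * ((h.factorial : ℝ) * β ^ h) / A0 * (1 / ((h - b).factorial : ℝ)) := by
  have hA0 : 0 < A0 := lt_of_lt_of_le one_pos hA
  have hF : (0 : ℝ) < ((h - b).factorial : ℝ) := by positivity
  have hc : (h.choose b : ℝ) * (b.factorial : ℝ) * ((h - b).factorial : ℝ) = (h.factorial : ℝ) := by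
    exact_mod_cast Nat.choose_mul_factorial_mul_factorial hbh
  have key : c ^ b * β ^ b * A0 ≤ c * β ^ h * A0 ^ h := by
    obtain ⟨m, rfl⟩ : ∃ m, h = b + m := ⟨h - b, by omega⟩
    obtain ⟨b', rfl⟩ : ∃ b', b = b' + 1 := ⟨b - 1, by omega⟩
    have h1 : c ^ b' ≤ 1 := pow_le_one₀ hc0 hc1
    have h2 : 1 ≤ (β * A0) ^ m := one_le_pow₀ hβA
    have h3 : 1 ≤ A0 ^ b' := one_le_pow₀ hA
    have hX : 0 ≤ c * β ^ (b' + 1) * A0 := by positivity
    have h23 : 1 ≤ (β * A0) ^ m * A0 ^ b' := by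
      calc (1 : ℝ) = 1 * 1 := by ring
        _ ≤ (β * A0) ^ m * A0 ^ b' := mul_le_mul h2 h3 zero_le_one (le_trans zero_le_one h2)
    calc c ^ (b' + 1) * β ^ (b' + 1) * A0 = c ^ b' * (c * β ^ (b' + 1) * A0) := by ring
      _ ≤ 1 * (c * β ^ (b' + 1) * A0) := mul_le_mul_of_nonneg_right h1 hX
      _ = (c * β ^ (b' + 1) * A0) * 1 := by ring
      _ ≤ (c * β ^ (b' + 1) * A0) * ((β * A0) ^ m * A0 ^ b') := mul_le_mul_of_nonneg_left h23 hX
      _ = c * β ^ (b' + 1 + m) * A0 ^ (b' + 1 + m) := by rw [mul_pow]; ring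
  have hAh : 0 < A0 ^ h := pow_pos hA0 h
  have e1 : (h.choose b : ℝ) * ((b.factorial : ℝ) * (c * β) ^ b) / A0 ^ h
      = ((h.factorial : ℝ) / ((h - b).factorial : ℝ)) * (c ^ b * β ^ b * A0) / (A0 ^ h * A0) := by
    rw [← hc, mul_pow]
    field_simp
  have e2 : c * ((h.factorial : ℝ) * β ^ h) / A0 * (1 / ((h - b).factorial : ℝ))
      = ((h.factorial : ℝ) / ((h - b).factorial : ℝ)) * (c * β ^ h * A0 ^ h) / (A0 ^ h * A0) := by
    field_simp
  rw [e1, e2]
  have hpos : 0 ≤ (h.factorial : ℝ) / ((h - b).factorial : ℝ) := by positivity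
  have hden : 0 < A0 ^ h * A0 := by positivity
  exact div_le_div_of_nonneg_right (mul_le_mul_of_nonneg_left key hpos) hden.le

/-- The heavy part: all `p i ≥ A0` and `w i ≤ 3 p i / A0`. -/
lemma key3_heavy {ι : Type*} [DecidableEq ι] (Hv : Finset ι) (a A0 : ℝ) (ha : 0 < a)
    (hA : 1 ≤ A0) (hβA : 1 ≤ 1024 * a * A0)
    (p w : ι → ℝ) (hpA : ∀ i ∈ Hv, A0 ≤ p i) (hw0 : ∀ i ∈ Hv, 0 ≤ w i)
    (hw : ∀ i ∈ Hv, w i ≤ 3 * p i / A0) :
    ∑ B ∈ Hv.powerset, (B.card.factorial : ℝ) * (2 * a) ^ B.card * ∏ i ∈ B, w i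
      ≤ 1 + Real.exp 1 * (3 / 512) *
          ((Hv.card.factorial : ℝ) * (1024 * a) ^ Hv.card * ∏ i ∈ Hv, p i) / A0 := by
  classical
  have hA0 : 0 < A0 := lt_of_lt_of_le one_pos hA
  set h := Hv.card with hh
  set Pr := ∏ i ∈ Hv, p i with hPr
  have hPr0 : 0 ≤ Pr := prod_nonneg fun i hi => le_trans hA0.le (hpA i hi)
  set G : ℕ → ℝ := fun b => (b.factorial : ℝ) * (6 * a) ^ b * Pr / A0 ^ h with hG
  have hterm : ∀ B ∈ Hv.powerset,
      (B.card.factorial : ℝ) * (2 * a) ^ B.card * ∏ i ∈ B, w i ≤ G B.card := by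
    intro B hB
    rw [mem_powerset] at hB
    have hw1 : ∏ i ∈ B, w i ≤ ∏ i ∈ B, (3 * p i / A0) :=
      prod_le_prod (fun i hi => hw0 i (hB hi)) (fun i hi => hw i (hB hi))
    have hw2 : ∏ i ∈ B, (3 * p i / A0) = 3 ^ B.card * (∏ i ∈ B, p i) / A0 ^ B.card := by
      rw [prod_div_distrib, prod_mul_distrib, prod_const, prod_const]
    have hcardle : B.card ≤ h := card_le_card hB
    have hsd : A0 ^ (h - B.card) ≤ ∏ i ∈ Hv \ B, p i := by
      have h1 : ∏ _i ∈ Hv \ B, A0 ≤ ∏ i ∈ Hv \ B, p i :=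
        prod_le_prod (fun i _ => hA0.le) (fun i hi => hpA i (mem_sdiff.mp hi).1)
      rwa [prod_const, card_sdiff_of_subset hB] at h1
    have hsplit : (∏ i ∈ Hv \ B, p i) * ∏ i ∈ B, p i = Pr := prod_sdiff hB
    have hB0 : 0 ≤ ∏ i ∈ B, p i := prod_nonneg fun i hi => le_trans hA0.le (hpA i (hB hi))
    have hpB : (∏ i ∈ B, p i) / A0 ^ B.card ≤ Pr / A0 ^ h := by
      rw [div_le_div_iff₀ (pow_pos hA0 _) (pow_pos hA0 _)]
      have e : A0 ^ h = A0 ^ (h - B.card) * A0 ^ B.card := by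
        rw [← pow_add, Nat.sub_add_cancel hcardle]
      rw [e, ← hsplit]
      have h1 := mul_le_mul_of_nonneg_right hsd (mul_nonneg hB0 (pow_nonneg hA0.le B.card))
      calc (∏ i ∈ B, p i) * (A0 ^ (h - B.card) * A0 ^ B.card)
          = A0 ^ (h - B.card) * ((∏ i ∈ B, p i) * A0 ^ B.card) := by ring
        _ ≤ (∏ i ∈ Hv \ B, p i) * ((∏ i ∈ B, p i) * A0 ^ B.card) := h1
        _ = (∏ i ∈ Hv \ B, p i) * (∏ i ∈ B, p i) * A0 ^ B.card := by ring
    have hfac : (0 : ℝ) ≤ (B.card.factorial : ℝ) * (2 * a) ^ B.card := by positivity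
    have hfac6 : (0 : ℝ) ≤ (B.card.factorial : ℝ) * (6 * a) ^ B.card := by positivity
    calc (B.card.factorial : ℝ) * (2 * a) ^ B.card * ∏ i ∈ B, w i
        ≤ (B.card.factorial : ℝ) * (2 * a) ^ B.card *
            (3 ^ B.card * (∏ i ∈ B, p i) / A0 ^ B.card) := by
          rw [← hw2]; exact mul_le_mul_of_nonneg_left hw1 hfac
      _ = (B.card.factorial : ℝ) * (6 * a) ^ B.card * ((∏ i ∈ B, p i) / A0 ^ B.card) := by
          have e6 : (6 * a) ^ B.card = 3 ^ B.card * (2 * a) ^ B.card := by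
            rw [← mul_pow]; congr 1; ring
          rw [e6]; ring
      _ ≤ (B.card.factorial : ℝ) * (6 * a) ^ B.card * (Pr / A0 ^ h) :=
          mul_le_mul_of_nonneg_left hpB hfac6
      _ = G B.card := by simp only [hG]; ring
  have hempty : (∅ : Finset ι) ∈ Hv.powerset := empty_mem_powerset _
  have hsplit1 := add_sum_erase Hv.powerset
    (fun B => (B.card.factorial : ℝ) * (2 * a) ^ B.card * ∏ i ∈ B, w i) hempty
  have hsplit2 := add_sum_erase Hv.powerset (fun B => G B.card) hempty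
  have hcount : ∑ B ∈ Hv.powerset, G B.card = ∑ b ∈ range (h + 1), (h.choose b : ℝ) * G b := by
    rw [sum_powerset_apply_card]
    simp [nsmul_eq_mul, hh]
  have hsucc : ∑ b ∈ range (h + 1), (h.choose b : ℝ) * G b
      = ∑ b ∈ range h, (h.choose (b + 1) : ℝ) * G (b + 1) + G 0 := by
    rw [sum_range_succ']; simp
  have herase : ∑ B ∈ Hv.powerset.erase ∅, G B.card
      = ∑ b ∈ range h, (h.choose (b + 1) : ℝ) * G (b + 1) := by
    have e0 : G (∅ : Finset ι).card = G 0 := by simp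
    linarith [hsplit2, hcount, hsucc, e0]
  have hbound : ∀ b ∈ range h, (h.choose (b + 1) : ℝ) * G (b + 1)
      ≤ (3 / 512) * ((h.factorial : ℝ) * (1024 * a) ^ h * Pr) / A0 *
          (1 / ((h - 1 - b).factorial : ℝ)) := by
    intro b hb
    have hb' : b + 1 ≤ h := by have := mem_range.mp hb; omega
    have hterm' := key3_heavy_term h (b + 1) (by omega) hb' (1024 * a) A0 (3 / 512)
      (by positivity) hA hβA (by norm_num) (by norm_num)
    have h6 : (3 / 512 : ℝ) * (1024 * a) = 6 * a := by ring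
    rw [h6] at hterm'
    have hsub : h - (b + 1) = h - 1 - b := by omega
    rw [hsub] at hterm'
    calc (h.choose (b + 1) : ℝ) * G (b + 1)
        = ((h.choose (b + 1) : ℝ) * (((b + 1).factorial : ℝ) * (6 * a) ^ (b + 1)) / A0 ^ h) * Pr := by
          simp only [hG]; ring
      _ ≤ ((3 / 512) * ((h.factorial : ℝ) * (1024 * a) ^ h) / A0 *
            (1 / ((h - 1 - b).factorial : ℝ))) * Pr := mul_le_mul_of_nonneg_right hterm' hPr0
      _ = (3 / 512) * ((h.factorial : ℝ) * (1024 * a) ^ h * Pr) / A0 *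
            (1 / ((h - 1 - b).factorial : ℝ)) := by ring
  have hsum : ∑ b ∈ range h, (1 / ((h - 1 - b).factorial : ℝ)) ≤ Real.exp 1 := by
    have h1 := sum_range_reflect (fun i => (1 : ℝ) / (i.factorial : ℝ)) h
    rw [h1]
    have h2 := Real.sum_le_exp_of_nonneg (x := 1) zero_le_one h
    simpa using h2
  have hq0 : 0 ≤ (3 / 512) * ((h.factorial : ℝ) * (1024 * a) ^ h * Pr) / A0 := by positivity
  calc ∑ B ∈ Hv.powerset, (B.card.factorial : ℝ) * (2 * a) ^ B.card * ∏ i ∈ B, w i
      = 1 + ∑ B ∈ Hv.powerset.erase ∅,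
          (B.card.factorial : ℝ) * (2 * a) ^ B.card * ∏ i ∈ B, w i := by
        rw [← hsplit1]; simp
    _ ≤ 1 + ∑ B ∈ Hv.powerset.erase ∅, G B.card := by
        have := sum_le_sum (fun B hB => hterm B (mem_of_mem_erase hB))
          (s := Hv.powerset.erase ∅)
        linarith
    _ = 1 + ∑ b ∈ range h, (h.choose (b + 1) : ℝ) * G (b + 1) := by rw [herase]
    _ ≤ 1 + ∑ b ∈ range h, (3 / 512) * ((h.factorial : ℝ) * (1024 * a) ^ h * Pr) / A0 *
          (1 / ((h - 1 - b).factorial : ℝ)) := by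
        have := sum_le_sum hbound
        linarith
    _ = 1 + (3 / 512) * ((h.factorial : ℝ) * (1024 * a) ^ h * Pr) / A0 *
          ∑ b ∈ range h, (1 / ((h - 1 - b).factorial : ℝ)) := by rw [mul_sum]
    _ ≤ 1 + (3 / 512) * ((h.factorial : ℝ) * (1024 * a) ^ h * Pr) / A0 * Real.exp 1 := by
        have := mul_le_mul_of_nonneg_left hsum hq0
        linarith
    _ = 1 + Real.exp 1 * (3 / 512) * ((h.factorial : ℝ) * (1024 * a) ^ h * Pr) / A0 := by ring

/-- The analytic heart: a weighted subset-sum inequality with factorial weights, proved by a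
heavy/light split of the index set. -/
theorem key3 {ι : Type*} [DecidableEq ι] (s : Finset ι) (a : ℝ) (ha : 0 < a)
    (p w : ι → ℝ) (Pmax : ℝ)
    (hp : ∀ i ∈ s, 1 ≤ p i)
    (hw0 : ∀ i ∈ s, 0 ≤ w i)
    (hw : ∀ i ∈ s, w i ≤ 2 + p i / Real.exp (1 / (6 * a)))
    (hP : ∀ T ⊆ s, (T.card.factorial : ℝ) * (1024 * a) ^ T.card * ∏ i ∈ T, p i ≤ Pmax) :
    ∑ T ∈ s.powerset, (T.card.factorial : ℝ) * a ^ T.card * ∏ i ∈ T, w i
      ≤ 2 + Pmax / Real.exp (1 / (6 * a)) := by
  classical
  set A0 := Real.exp (1 / (6 * a)) with hA0def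
  have hA0pos : 0 < A0 := Real.exp_pos _
  have hinv0 : 0 ≤ 1 / (6 * a) := by positivity
  have hA : 1 ≤ A0 := by
    have := Real.add_one_le_exp (1 / (6 * a))
    linarith
  have hβA : 1 ≤ 1024 * a * A0 := by
    have h1 := Real.add_one_le_exp (1 / (6 * a))
    have h2 : 1 / (6 * a) ≤ A0 := by linarith
    have h3 : 1024 * a * (1 / (6 * a)) ≤ 1024 * a * A0 :=
      mul_le_mul_of_nonneg_left h2 (by positivity)
    have e : 1024 * a * (1 / (6 * a)) = 1024 / 6 := by field_simp
    rw [e] at h3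
    linarith
  set P : ι → Prop := fun i => A0 ≤ p i with hPdef
  set Hv := s.filter P with hHv
  set Lt := s.filter (fun i => ¬ P i) with hLt
  set X := ∑ B ∈ Hv.powerset, (B.card.factorial : ℝ) * (2 * a) ^ B.card * ∏ i ∈ B, w i with hXdef
  set Y := ∑ J ∈ Lt.powerset, (J.card.factorial : ℝ) * (2 * a) ^ J.card * ∏ i ∈ J, w i with hYdef
  have hsplit : ∑ T ∈ s.powerset, (T.card.factorial : ℝ) * a ^ T.card * ∏ i ∈ T, w i ≤ X * Y :=
    key3_split s P a ha.le w hw0
  set q := (Hv.card.factorial : ℝ) * (1024 * a) ^ Hv.card * ∏ i ∈ Hv, p i with hqdef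
  have hq : q ≤ Pmax := hP Hv (filter_subset _ _)
  have hHvs : ∀ i ∈ Hv, i ∈ s ∧ A0 ≤ p i := fun i hi => mem_filter.mp hi
  have hLts : ∀ i ∈ Lt, i ∈ s ∧ p i < A0 := fun i hi => by
    have h1 := mem_filter.mp hi
    exact ⟨h1.1, not_le.mp h1.2⟩
  have hX : X ≤ 1 + Real.exp 1 * (3 / 512) * q / A0 := by
    apply key3_heavy Hv a A0 ha hA hβA p w (fun i hi => (hHvs i hi).2)
      (fun i hi => hw0 i (hHvs i hi).1)
    intro i hi
    have h1 := hw i (hHvs i hi).1
    have h2 : 1 ≤ p i / A0 := by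
      rw [le_div_iff₀ hA0pos]; linarith [(hHvs i hi).2]
    have e : 3 * p i / A0 = 3 * (p i / A0) := by ring
    rw [e]; linarith
  have hq1 : 1 ≤ q := by
    have hPr : A0 ^ Hv.card ≤ ∏ i ∈ Hv, p i := by
      have h1 : ∏ _i ∈ Hv, A0 ≤ ∏ i ∈ Hv, p i :=
        prod_le_prod (fun i _ => hA0pos.le) (fun i hi => (hHvs i hi).2)
      rwa [prod_const] at h1
    have hf : (1 : ℝ) ≤ (Hv.card.factorial : ℝ) := by
      exact_mod_cast Nat.one_le_iff_ne_zero.mpr (Nat.factorial_ne_zero _)
    have hpow : 1 ≤ (1024 * a) ^ Hv.card * A0 ^ Hv.card := by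
      rw [← mul_pow]; exact one_le_pow₀ hβA
    have hb : (0 : ℝ) ≤ (1024 * a) ^ Hv.card := by positivity
    calc (1 : ℝ) = 1 * 1 := by ring
      _ ≤ (Hv.card.factorial : ℝ) * ((1024 * a) ^ Hv.card * A0 ^ Hv.card) :=
          mul_le_mul hf hpow zero_le_one (by positivity)
      _ ≤ (Hv.card.factorial : ℝ) * ((1024 * a) ^ Hv.card * ∏ i ∈ Hv, p i) :=
          mul_le_mul_of_nonneg_left (mul_le_mul_of_nonneg_left hPr hb) (by positivity)
      _ = q := by rw [hqdef]; ring
  have hq0 : 0 ≤ q := le_trans zero_le_one hq1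
  have hX0 : 0 ≤ X := by
    apply sum_nonneg
    intro B hB
    have hB' := mem_powerset.mp hB
    exact mul_nonneg (by positivity) (prod_nonneg fun i hi => hw0 i (hHvs i (hB' hi)).1)
  have hY0 : 0 ≤ Y := by
    apply sum_nonneg
    intro J hJ
    have hJ' := mem_powerset.mp hJ
    exact mul_nonneg (by positivity) (prod_nonneg fun i hi => hw0 i (hLts i (hJ' hi)).1)
  have he : Real.exp 1 < 2.7182818286 := Real.exp_one_lt_d9
  have hYle : Y ≤ ∑ j ∈ range (Lt.card + 1),
      (Lt.card.choose j : ℝ) * ((j.factorial : ℝ) * (6 * a) ^ j) := by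
    have h3 : ∀ i ∈ Lt, w i ≤ 3 := by
      intro i hi
      have h1 := hw i (hLts i hi).1
      have h2 : p i / A0 ≤ 1 := by
        rw [div_le_one hA0pos]; exact (hLts i hi).2.le
      linarith
    calc Y ≤ ∑ J ∈ Lt.powerset, (J.card.factorial : ℝ) * (6 * a) ^ J.card := by
          apply sum_le_sum
          intro J hJ
          have hJ' := mem_powerset.mp hJ
          have hprod : ∏ i ∈ J, w i ≤ ∏ _i ∈ J, (3 : ℝ) :=
            prod_le_prod (fun i hi => hw0 i (hLts i (hJ' hi)).1) (fun i hi => h3 i (hJ' hi))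
          rw [prod_const] at hprod
          have hfac : (0 : ℝ) ≤ (J.card.factorial : ℝ) * (2 * a) ^ J.card := by positivity
          calc (J.card.factorial : ℝ) * (2 * a) ^ J.card * ∏ i ∈ J, w i
              ≤ (J.card.factorial : ℝ) * (2 * a) ^ J.card * 3 ^ J.card :=
                mul_le_mul_of_nonneg_left hprod hfac
            _ = (J.card.factorial : ℝ) * (6 * a) ^ J.card := by
                have e6 : (6 * a) ^ J.card = (2 * a) ^ J.card * 3 ^ J.card := by
                  rw [← mul_pow]; congr 1; ring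
                rw [e6]; ring
      _ = ∑ j ∈ range (Lt.card + 1),
            (Lt.card.choose j : ℝ) * ((j.factorial : ℝ) * (6 * a) ^ j) := by
          rw [sum_powerset_apply_card (fun j => (j.factorial : ℝ) * (6 * a) ^ j)]
          simp [nsmul_eq_mul]
  by_cases hcase : 12 * a * (Lt.card : ℝ) ≤ 1
  · have hY2 : Y ≤ 2 :=
      le_trans hYle (key3_phi_small Lt.card (6 * a) (by positivity) (by linarith))
    have hfin : X * Y ≤ 2 + Pmax / A0 := by
      have h1 : Real.exp 1 * (3 / 256) ≤ 1 := by linarith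
      have h2 : q / A0 ≤ Pmax / A0 := div_le_div_of_nonneg_right hq hA0pos.le
      have h3 : 0 ≤ q / A0 := div_nonneg hq0 hA0pos.le
      calc X * Y ≤ X * 2 := mul_le_mul_of_nonneg_left hY2 hX0
        _ ≤ (1 + Real.exp 1 * (3 / 512) * q / A0) * 2 := mul_le_mul_of_nonneg_right hX (by norm_num)
        _ = 2 + (Real.exp 1 * (3 / 256)) * (q / A0) := by ring
        _ ≤ 2 + 1 * (q / A0) := by
            have := mul_le_mul_of_nonneg_right h1 h3
            linarith
        _ ≤ 2 + Pmax / A0 := by linarith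
    linarith
  · rw [not_le] at hcase
    set l := Lt.card with hl
    have hl1 : 1 ≤ l := by
      by_contra h0
      have h00 : l = 0 := by omega
      rw [h00] at hcase
      simp at hcase
      linarith
    have hY3 : Y ≤ (l.factorial : ℝ) * (6 * a) ^ l * A0 :=
      le_trans hYle (key3_phi_large l (6 * a) (by positivity))
    have hX2 : X ≤ 2 * q := by
      have h1 : Real.exp 1 * (3 / 512) * q / A0 ≤ q := by
        rw [div_le_iff₀ hA0pos]
        have h2 : Real.exp 1 * (3 / 512) ≤ 1 := by linarith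
        have h3 := mul_le_mul_of_nonneg_right h2 hq0
        have h4 := mul_le_mul_of_nonneg_left hA hq0
        linarith
      linarith
    have hcard : Hv.card + l = s.card := card_filter_add_card_filter_not P
    have hprods : (∏ i ∈ Hv, p i) * ∏ i ∈ Lt, p i = ∏ i ∈ s, p i :=
      prod_filter_mul_prod_filter_not s P p
    have hLt1 : 1 ≤ ∏ i ∈ Lt, p i := by
      have h1 : ∏ _i ∈ Lt, (1 : ℝ) ≤ ∏ i ∈ Lt, p i :=
        prod_le_prod (fun i _ => zero_le_one) (fun i hi => hp i (hLts i hi).1)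
      simpa using h1
    have hHv0 : 0 ≤ ∏ i ∈ Hv, p i :=
      prod_nonneg fun i hi => le_trans hA0pos.le (hHvs i hi).2
    have hs := hP s (Subset.refl s)
    have hfact : (Hv.card.factorial : ℝ) * (l.factorial : ℝ) ≤ ((Hv.card + l).factorial : ℝ) := by
      exact_mod_cast Nat.le_of_dvd (Nat.factorial_pos _)
        (Nat.factorial_mul_factorial_dvd_factorial_add _ _)
    have hql : q * ((l.factorial : ℝ) * (1024 * a) ^ l) ≤ Pmax := by
      have hb : (0 : ℝ) ≤ (1024 * a) ^ (Hv.card + l) := by positivity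
      have hprod_le : ∏ i ∈ Hv, p i ≤ (∏ i ∈ Hv, p i) * ∏ i ∈ Lt, p i := by
        have := mul_le_mul_of_nonneg_left hLt1 hHv0
        linarith
      calc q * ((l.factorial : ℝ) * (1024 * a) ^ l)
          = ((Hv.card.factorial : ℝ) * (l.factorial : ℝ)) * (1024 * a) ^ (Hv.card + l) *
              ∏ i ∈ Hv, p i := by rw [hqdef, pow_add]; ring
        _ ≤ ((Hv.card + l).factorial : ℝ) * (1024 * a) ^ (Hv.card + l) *
              ((∏ i ∈ Hv, p i) * ∏ i ∈ Lt, p i) := by
            apply mul_le_mul (mul_le_mul_of_nonneg_right hfact hb) hprod_le hHv0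
            positivity
        _ = (s.card.factorial : ℝ) * (1024 * a) ^ s.card * ∏ i ∈ s, p i := by
            rw [hcard, hprods]
        _ ≤ Pmax := hs
    have hnum : 2 * (3 / 512 : ℝ) ^ l * A0 * A0 ≤ 1 := by
      have hA2 : A0 * A0 = Real.exp (1 / (3 * a)) := by
        rw [hA0def, ← Real.exp_add]; congr 1; field_simp; ring
      have h5 : Real.exp 5 ≤ 512 / 3 := by
        have e5 : Real.exp 5 = Real.exp 1 ^ 5 := by
          rw [← Real.exp_nat_mul]; norm_num
        rw [e5]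
        have h51 : Real.exp 1 ^ 5 ≤ (2.7182818286 : ℝ) ^ 5 :=
          pow_le_pow_left₀ (Real.exp_pos 1).le he.le 5
        have h52 : (2.7182818286 : ℝ) ^ 5 ≤ 512 / 3 := by norm_num
        linarith
      have h5l : Real.exp (5 * (l : ℝ)) ≤ (512 / 3 : ℝ) ^ l := by
        have e5l : Real.exp (5 * (l : ℝ)) = Real.exp 5 ^ l := by
          rw [← Real.exp_nat_mul]; congr 1; ring
        rw [e5l]
        exact pow_le_pow_left₀ (Real.exp_pos 5).le h5 l
      have hexp : 2 * Real.exp (1 / (3 * a)) ≤ Real.exp (5 * (l : ℝ)) := by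
        have h2 : (2 : ℝ) ≤ Real.exp 1 := by
          have := Real.add_one_le_exp 1; linarith
        have h1 : 1 + 1 / (3 * a) ≤ 5 * (l : ℝ) := by
          have hlr : (1 : ℝ) ≤ l := by exact_mod_cast hl1
          have h4 : 1 / (3 * a) ≤ 4 * (l : ℝ) := by
            rw [div_le_iff₀ (by positivity)]; nlinarith
          linarith
        calc 2 * Real.exp (1 / (3 * a)) ≤ Real.exp 1 * Real.exp (1 / (3 * a)) :=
              mul_le_mul_of_nonneg_right h2 (Real.exp_pos _).le
          _ = Real.exp (1 + 1 / (3 * a)) := by rw [Real.exp_add]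
          _ ≤ Real.exp (5 * (l : ℝ)) := Real.exp_le_exp.mpr h1
      have hinv : (3 / 512 : ℝ) ^ l * (512 / 3 : ℝ) ^ l = 1 := by
        rw [← mul_pow]; norm_num
      have hpos : (0 : ℝ) ≤ (3 / 512 : ℝ) ^ l := by positivity
      calc 2 * (3 / 512 : ℝ) ^ l * A0 * A0 = (3 / 512 : ℝ) ^ l * (2 * (A0 * A0)) := by ring
        _ = (3 / 512 : ℝ) ^ l * (2 * Real.exp (1 / (3 * a))) := by rw [hA2]
        _ ≤ (3 / 512 : ℝ) ^ l * (512 / 3 : ℝ) ^ l :=
            mul_le_mul_of_nonneg_left (le_trans hexp h5l) hpos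
        _ = 1 := hinv
    have hPm : 0 ≤ Pmax := le_trans hq0 hq
    have hfin : X * Y ≤ Pmax / A0 := by
      have hc0 : (0 : ℝ) ≤ 2 * (3 / 512 : ℝ) ^ l * A0 := by positivity
      calc X * Y ≤ (2 * q) * ((l.factorial : ℝ) * (6 * a) ^ l * A0) :=
            mul_le_mul hX2 hY3 hY0 (by positivity)
        _ = (2 * (3 / 512 : ℝ) ^ l * A0) * (q * ((l.factorial : ℝ) * (1024 * a) ^ l)) := by
            have e6 : (6 * a) ^ l = (3 / 512 : ℝ) ^ l * (1024 * a) ^ l := by
              rw [← mul_pow]; congr 1; ring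
            rw [e6]; ring
        _ ≤ (2 * (3 / 512 : ℝ) ^ l * A0) * Pmax := mul_le_mul_of_nonneg_left hql hc0
        _ ≤ Pmax / A0 := by
            rw [le_div_iff₀ hA0pos]
            calc 2 * (3 / 512 : ℝ) ^ l * A0 * Pmax * A0
                = (2 * (3 / 512 : ℝ) ^ l * A0 * A0) * Pmax := by ring
              _ ≤ 1 * Pmax := mul_le_mul_of_nonneg_right hnum hPm
              _ = Pmax := one_mul _
    linarith

end Vale.Agent.Lib.P064
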